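import Vale.Agent.P092.H333.V.Ov1
import Vale.Agent.P092.H387.Qt3

/-!
P092 (helper333), isogenies, block [V-OV], second part: the quotient of an overgroup by its radical
is a place.
-/

set_option linter.all false

open MeasureTheory Filter Topology Set

namespace Vale.Agent.P092.H333.V

open Vale.Agent.P092.VR (Ov IsRad FacV)
open Vale.Agent.P092.PA (FacS)
open Vale.Agent.P092.H259 (PQ pq)

section gen

variable {M E : Type} [Group M] [TopologicalSpace M] [Group E] [TopologicalSpace E]
  {φ : M →* E} {R : Subgroup E}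

/-- The factor of the quotient. -/
abbrev NN (φ : M →* E) (R : Subgroup E) [R.Normal] : Subgroup (E ⧸ R) :=
  φ.range.map (QuotientGroup.mk' R)

/-- The map of the factor to the quotient of the overgroup. -/
def qm (φ : M →* E) (R : Subgroup E) [R.Normal] (h : R.comap φ = Subgroup.center M) :
    PQ M →* E ⧸ R :=
  QuotientGroup.lift (Subgroup.center M) ((QuotientGroup.mk' R).comp φ) (by
    rw [← h, ← MonoidHom.comap_ker, QuotientGroup.ker_mk'])

theorem qm_mk [R.Normal] (h : R.comap φ = Subgroup.center M) (m : M) :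
    qm φ R h (m : PQ M) = (φ m : E ⧸ R) := rfl

theorem qm_inj [R.Normal] (h : R.comap φ = Subgroup.center M) : Function.Injective (qm φ R h) := by
  rw [injective_iff_map_eq_one]
  intro x
  obtain ⟨m, rfl⟩ := QuotientGroup.mk'_surjective (Subgroup.center M) x
  intro hx
  have h1 : (φ m : E ⧸ R) = 1 := hx
  have h3 : φ m ∈ R := (QuotientGroup.eq_one_iff (φ m)).1 h1
  have h2 : m ∈ R.comap φ := h3
  rw [h] at h2
  exact (QuotientGroup.eq_one_iff m).2 h2

theorem qm_cont [R.Normal] (h : R.comap φ = Subgroup.center M) (hc : Continuous φ) :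
    Continuous (qm φ R h) := by
  refine continuous_quot_lift _ ?_
  exact QuotientGroup.continuous_mk.comp hc

theorem qm_open [IsTopologicalGroup E] [R.Normal] (h : R.comap φ = Subgroup.center M)
    (ho : IsOpenMap φ) : IsOpenMap (qm φ R h) := by
  intro U hU
  have e : qm φ R h '' U = (QuotientGroup.mk : E → E ⧸ R) '' (φ '' ((QuotientGroup.mk :
      M → PQ M) ⁻¹' U)) := by
    ext y
    constructor
    · rintro ⟨x, hx, rfl⟩
      obtain ⟨x, rfl⟩ := QuotientGroup.mk_surjective x
      exact ⟨φ x, ⟨x, hx, rfl⟩, rfl⟩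
    · rintro ⟨_, ⟨x, hx, rfl⟩, rfl⟩
      exact ⟨_, hx, rfl⟩
  rw [e]
  exact QuotientGroup.isOpenMap_coe _ (ho _ (hU.preimage QuotientGroup.continuous_mk))

theorem qm_range [R.Normal] (h : R.comap φ = Subgroup.center M) : (qm φ R h).range = NN φ R := by
  ext y
  constructor
  · rintro ⟨x, rfl⟩
    obtain ⟨m, rfl⟩ := QuotientGroup.mk'_surjective (Subgroup.center M) x
    exact ⟨φ m, ⟨m, rfl⟩, rfl⟩
  · rintro ⟨_, ⟨m, rfl⟩, rfl⟩
    exact ⟨(m : PQ M), rfl⟩

theorem nn_open [IsTopologicalGroup E] [R.Normal] (ho : IsOpenMap φ) :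
    IsOpen (NN φ R : Set (E ⧸ R)) := by
  have h1 : IsOpen (φ.range : Set E) := by
    rw [MonoidHom.coe_range]
    exact ho.isOpen_range
  exact QuotientGroup.isOpenMap_coe _ h1

theorem nn_normal [R.Normal] (hn : φ.range.Normal) : (NN φ R).Normal :=
  hn.map _ (QuotientGroup.mk'_surjective _)

theorem nn_fin [R.Normal] (hf : φ.range.FiniteIndex) : (NN φ R).FiniteIndex := by
  refine ⟨?_⟩
  have h1 : (NN φ R).index ∣ φ.range.index :=
    Subgroup.index_map_dvd _ (QuotientGroup.mk'_surjective _)
  intro h0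
  rw [h0] at h1
  exact hf.index_ne_zero (Nat.eq_zero_of_zero_dvd h1)

theorem nn_cent (hR : IsRad φ R) [R.Normal] (g : E ⧸ R)
    (hg : ∀ n ∈ NN φ R, g * n = n * g) : g = 1 := by
  obtain ⟨g, rfl⟩ := QuotientGroup.mk'_surjective R g
  refine (QuotientGroup.eq_one_iff g).2 (hR.cent g fun n hn => ?_)
  have h1 := hg _ ⟨n, hn, rfl⟩
  rw [← QuotientGroup.eq_one_iff]
  show QuotientGroup.mk' R (g * n * g⁻¹ * n⁻¹) = 1
  rw [map_mul, map_mul, map_mul, h1, map_inv, map_inv]
  group

/-- The factor is isomorphic to the factor of the quotient. -/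
noncomputable def nnEquiv [IsTopologicalGroup E] [R.Normal] (h : R.comap φ = Subgroup.center M)
    (hc : Continuous φ) (ho : IsOpenMap φ) : PQ M ≃ₜ* NN φ R :=
  let f := qm φ R h
  let e : PQ M ≃* f.range := MonoidHom.ofInjective (qm_inj h)
  let e' : f.range ≃* NN φ R := MulEquiv.subgroupCongr (qm_range h)
  { e.trans e' with
    continuous_toFun := (qm_cont h hc).subtype_mk _
    continuous_invFun := by
      have h1 : IsOpenMap (e.trans e') := by
        intro U hU
        have h2 := (qm_open h ho U hU).preimage (continuous_subtype_val (p := fun x => x ∈ NN φ R))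
        convert h2 using 1
        ext y
        constructor
        · rintro ⟨x, hx, rfl⟩
          exact ⟨x, hx, rfl⟩
        · rintro ⟨x, hx, hxy⟩
          exact ⟨x, hx, Subtype.ext hxy⟩
      exact ((e.trans e').toEquiv.toHomeomorphOfContinuousOpen
        ((qm_cont h hc).subtype_mk _) h1).symm.continuous }

end gen

section top

variable {M E : Type} [Group M] [TopologicalSpace M] [Group E] [TopologicalSpace E]
  {φ : M →* E} {R : Subgroup E} {r : ℕ}

theorem t2_quo (h : Ov φ r) (hR : IsRad φ R) [R.Normal] : T2Space (E ⧸ R) := by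
  haveI := h.top
  haveI := Ov.t2 h
  haveI := hR.fin
  haveI : IsClosed (R : Set E) := (Set.toFinite _).isClosed
  infer_instance

theorem lc_quo (h : Ov φ r) (hR : IsRad φ R) [R.Normal] : LocallyCompactSpace (E ⧸ R) := by
  haveI := h.top
  haveI := Ov.lc h
  infer_instance

theorem sc_quo (h : Ov φ r) (hR : IsRad φ R) [R.Normal] : SecondCountableTopology (E ⧸ R) := by
  haveI := h.top
  haveI := Ov.sc h
  infer_instance

theorem tg_quo (h : Ov φ r) (hR : IsRad φ R) [R.Normal] : IsTopologicalGroup (E ⧸ R) := by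
  haveI := h.top
  infer_instance

theorem facS_nn (h : Ov φ r) (hR : IsRad φ R) [R.Normal] : FacS (NN φ R) := by
  haveI := h.top
  exact Vale.Agent.P092.H387.Qt.facS_congr h.qf.fac (nnEquiv hR.comap h.cont h.opn)

/-- The factor of the quotient is connected if the factor is. -/
theorem conn_nn (h : Ov φ r) (hR : IsRad φ R) [R.Normal] (hc : PreconnectedSpace M) :
    PreconnectedSpace (NN φ R) := by
  haveI := h.top
  haveI : PreconnectedSpace (PQ M) :=
    (QuotientGroup.mk'_surjective (Subgroup.center M)).denseRange.preconnectedSpace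
      continuous_quotient_mk'
  have e := nnEquiv (R := R) hR.comap h.cont h.opn
  exact e.surjective.denseRange.preconnectedSpace e.continuous_toFun

theorem noncpt_nn (h : Ov φ r) (hR : IsRad φ R) [R.Normal] :
    ¬ IsCompact (NN φ R : Set (E ⧸ R)) := by
  intro hc
  exact (facS_nn h hR).nc (isCompact_iff_compactSpace.1 hc)

/-- **The quotient of an overgroup by its radical is a place.** -/
theorem facV_quo (h : Ov φ r) (hR : IsRad φ R) [R.Normal] : FacV (E ⧸ R) := by
  haveI := h.top
  haveI := t2_quo h hR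
  haveI := lc_quo h hR
  haveI := sc_quo h hR
  haveI := tg_quo h hR
  haveI := nn_fin (R := R) h.fin
  have hN := facS_nn h hR
  have hn := nn_normal (R := R) h.normal
  have ho := nn_open (R := R) h.opn
  have hc := nn_cent hR
  refine ⟨fun S T hS hT hST => VR.pair_of hn hc hN hS hT hST, fun L hL h0 => ?_, ?_⟩
  · have h1 : NN φ R ≤ L := VR.le_of_normal hn hc hN.simple L hL h0
    have h2 : IsOpen (L : Set (E ⧸ R)) := Subgroup.isOpen_mono h1 ho
    refine ⟨h2, fun h3 => ?_⟩
    have h4 : IsClosed (NN φ R : Set (E ⧸ R)) := (NN φ R).isClosed_of_isOpen ho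
    exact noncpt_nn h hR (h3.of_isClosed_subset h4 h1)
  · intro _ _ ν _ hν
    exact VR.null_of hn ho hc hN ν hν

/-- The quotient is not compact. -/
theorem noncpt_quo (h : Ov φ r) (hR : IsRad φ R) [R.Normal] :
    ¬ IsCompact (univ : Set (E ⧸ R)) := by
  haveI := h.top
  haveI := tg_quo h hR
  intro hc
  have ho := nn_open (R := R) h.opn
  exact noncpt_nn h hR (hc.of_isClosed_subset ((NN φ R).isClosed_of_isOpen ho) (subset_univ _))

/-- A homomorphism to the positive reals is trivial. -/
theorem hom_trivial {G : Type} [Group G] [TopologicalSpace G] (N : Subgroup G) [N.FiniteIndex]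
    [N.Normal] (hN : FacS N) (f : G →* NNReal) (g : G) : f g = 1 := by
  haveI : Finite (G ⧸ N) := Subgroup.finite_quotient_of_finiteIndex
  have h1 : ∀ n ∈ N, f n = 1 := by
    intro n hn
    have h2 := hN.hom _ (f.toHomUnits.comp N.subtype)
    have h3 : (((f.toHomUnits.comp N.subtype) ⟨n, hn⟩ : NNRealˣ) : NNReal) = 1 := by
      rw [h2]
      rfl
    exact h3
  have h2 : g ^ N.index ∈ N := Subgroup.pow_index_mem N g
  have h3 := h1 _ h2
  rw [map_pow] at h3
  exact (pow_eq_one_iff_of_nonneg (zero_le) (Subgroup.FiniteIndex.index_ne_zero)).1 h3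

/-- **The Haar measure of the quotient is right invariant.** -/
theorem rinv_quo (h : Ov φ r) (hR : IsRad φ R) [R.Normal] [IsTopologicalGroup (E ⧸ R)]
    [LocallyCompactSpace (E ⧸ R)] [MeasurableSpace (E ⧸ R)] [BorelSpace (E ⧸ R)]
    (μ : Measure (E ⧸ R)) [μ.IsHaarMeasure] : μ.IsMulRightInvariant := by
  haveI := h.top
  haveI := sc_quo h hR
  haveI := t2_quo h hR
  haveI := nn_fin (R := R) h.fin
  haveI := nn_normal (R := R) h.normal
  refine ⟨fun g => ?_⟩
  haveI : Measure.InnerRegular μ := by
    haveI : Measure.Regular μ := inferInstance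
    infer_instance
  have h1 : Measure.modularCharacterFun g = 1 :=
    hom_trivial (NN φ R) (facS_nn h hR) (Measure.modularCharacter (G := E ⧸ R)) g
  rw [Measure.map_right_mul_eq_modularCharacterFun_smul, h1, one_smul]

end top

end Vale.Agent.P092.H333.V
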