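import Vale.Agent.P092.VR.Ov
import Vale.Agent.P092.VR.Fac

/-!
P092 (helper333), isogenies, block [V-OV], first part: the topology of an overgroup of finite index
of a factor, and its radical.
-/

set_option linter.all false

open MeasureTheory Filter Topology Set

namespace Vale.Agent.P092.H333.V

open Vale.Agent.P092.VR (Ov IsRad)
open Vale.Agent.P092.PA (FacS)
open Vale.Agent.P092.H259 (PQ pq)

section top

variable {M E : Type} [Group M] [TopologicalSpace M] [Group E] [TopologicalSpace E]
  {φ : M →* E}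

theorem emb (hc : Continuous φ) (hi : Function.Injective φ) (ho : IsOpenMap φ) :
    IsOpenEmbedding φ := .of_continuous_injective_isOpenMap hc hi ho

theorem lc_of [IsTopologicalGroup E] (hc : Continuous φ) (ho : IsOpenMap φ)
    [LocallyCompactSpace M] : LocallyCompactSpace E := by
  obtain ⟨K, hK, h1⟩ := exists_compact_mem_nhds (1 : M)
  exact (hK.image hc).locallyCompactSpace_of_mem_nhds_of_group (ho.image_mem_nhds h1)

theorem t2_of [IsTopologicalGroup E] (hi : Function.Injective φ) (ho : IsOpenMap φ)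
    [T2Space M] : T2Space E := by
  refine IsTopologicalGroup.t2Space_of_one_sep fun x hx => ?_
  by_cases h : x ∈ φ.range
  · obtain ⟨m, rfl⟩ := h
    have hm : (1 : M) ≠ m := fun e => hx (by rw [← e, map_one])
    refine ⟨φ '' {m}ᶜ, ?_, ?_⟩
    · have := ho.image_mem_nhds (x := (1 : M)) (isOpen_compl_singleton.mem_nhds hm)
      rwa [map_one] at this
    · rintro ⟨y, hy, hym⟩
      exact hy (hi hym)
  · refine ⟨φ '' univ, ?_, ?_⟩
    · have := ho.image_mem_nhds (x := (1 : M)) univ_mem
      rwa [map_one] at this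
    · rintro ⟨y, -, hy⟩
      exact h ⟨y, hy⟩

theorem sc_of [IsTopologicalGroup E] (hc : Continuous φ) (hi : Function.Injective φ)
    (ho : IsOpenMap φ) [SecondCountableTopology M] [φ.range.FiniteIndex] :
    SecondCountableTopology E := by
  haveI : Finite (E ⧸ φ.range) := Subgroup.finite_quotient_of_finiteIndex
  have h1 : ∀ q : E ⧸ φ.range, IsOpenEmbedding fun m : M => q.out * φ m := fun q =>
    (Homeomorph.mulLeft q.out).isOpenEmbedding.comp (emb hc hi ho)
  haveI : ∀ q : E ⧸ φ.range, SecondCountableTopology (Set.range fun m : M => q.out * φ m) :=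
    fun q => ((h1 q).isEmbedding.toHomeomorph.symm.isInducing).secondCountableTopology
  refine TopologicalSpace.secondCountableTopology_of_countable_cover
    (U := fun q : E ⧸ φ.range => Set.range fun m : M => q.out * φ m)
    (fun q => (h1 q).isOpen_range) ?_
  rw [eq_univ_iff_forall]
  intro x
  obtain ⟨m, hm⟩ := QuotientGroup.eq.1 (QuotientGroup.out_eq' (x : E ⧸ φ.range))
  refine mem_iUnion.2 ⟨(x : E ⧸ φ.range), m, ?_⟩
  show (x : E ⧸ φ.range).out * φ m = x
  rw [hm, mul_inv_cancel_left]

end top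

section ov

variable {M E : Type} [Group M] [TopologicalSpace M] [Group E] [TopologicalSpace E]
  {φ : M →* E} {r : ℕ}

theorem Ov.lc (h : Ov φ r) : LocallyCompactSpace E := by
  haveI := h.top
  haveI := h.qf.lc
  exact lc_of h.cont h.opn

theorem Ov.t2 (h : Ov φ r) : T2Space E := by
  haveI := h.top
  haveI := h.qf.t2
  exact t2_of h.inj h.opn

theorem Ov.sc (h : Ov φ r) : SecondCountableTopology E := by
  haveI := h.top
  haveI := h.qf.sc
  haveI := h.fin
  exact sc_of h.cont h.inj h.opn

end ov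

section rad

variable {M E : Type} [Group M] [Group E] {φ : M →* E}

/-- The image of the centre of `M`. -/
abbrev cc (φ : M →* E) : Subgroup E := (Subgroup.center M).map φ

theorem cc_normal (hi : Function.Injective φ) (hn : φ.range.Normal) : (cc φ).Normal := by
  refine ⟨?_⟩
  rintro _ ⟨z, hz, rfl⟩ g
  obtain ⟨z', hz'⟩ := hn.conj_mem (φ z) ⟨z, rfl⟩ g
  refine ⟨z', ?_, hz'⟩
  refine Subgroup.mem_center_iff.2 fun m => ?_
  obtain ⟨m', hm'⟩ := hn.conj_mem (φ m) ⟨m, rfl⟩ g⁻¹
  rw [inv_inv] at hm'
  have hz1 : φ m' * φ z = φ z * φ m' := by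
    rw [← map_mul, ← map_mul, Subgroup.mem_center_iff.1 hz m']
  apply hi
  rw [map_mul, map_mul, hz']
  have e : φ m = g * φ m' * g⁻¹ := by
    rw [hm']; group
  rw [e]
  calc g * φ m' * g⁻¹ * (g * φ z * g⁻¹) = g * (φ m' * φ z) * g⁻¹ := by group
    _ = g * (φ z * φ m') * g⁻¹ := by rw [hz1]
    _ = _ := by group

/-- The radical of an overgroup. -/
theorem exists_rad' (hi : Function.Injective φ) (hn : φ.range.Normal) (hf : φ.range.FiniteIndex)
    (hc : Finite (Subgroup.center M))
    (hcen : ∀ x : PQ M, (∀ y : PQ M, x * y = y * x) → x = 1) : ∃ R : Subgroup E, IsRad φ R := by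
  haveI := cc_normal hi hn
  haveI := hn
  haveI := hf
  obtain ⟨R, hR⟩ : ∃ R : Subgroup E, R = (Subgroup.centralizer
    ((φ.range.map (QuotientGroup.mk' (cc φ)) : Subgroup (E ⧸ cc φ)) : Set (E ⧸ cc φ))).comap
      (QuotientGroup.mk' (cc φ)) := ⟨_, rfl⟩
  have hmem : ∀ g : E, g ∈ R ↔ ∀ n ∈ φ.range, g * n * g⁻¹ * n⁻¹ ∈ cc φ := by
    intro g
    rw [hR, Subgroup.mem_comap, Subgroup.mem_centralizer_iff]
    constructor
    · intro h n hn
      have h1 := h _ ⟨n, hn, rfl⟩
      rw [← QuotientGroup.eq_one_iff]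
      show QuotientGroup.mk' (cc φ) (g * n * g⁻¹ * n⁻¹) = 1
      rw [map_mul, map_mul, map_mul, ← h1, map_inv, map_inv]
      group
    · rintro h _ ⟨n, hn, rfl⟩
      have h1 := (QuotientGroup.eq_one_iff _).2 (h n hn)
      have h2 : QuotientGroup.mk' (cc φ) (g * n * g⁻¹ * n⁻¹) = 1 := h1
      rw [map_mul, map_mul, map_mul, map_inv, map_inv, mul_inv_eq_one, mul_inv_eq_iff_eq_mul] at h2
      exact h2.symm
  haveI hRn : R.Normal := by
    rw [hR]
    haveI : (φ.range.map (QuotientGroup.mk' (cc φ))).Normal :=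
      hn.map _ (QuotientGroup.mk'_surjective _)
    exact (Subgroup.normal_centralizer).comap _
  have hcomap : R.comap φ = Subgroup.center M := by
    ext m
    rw [Subgroup.mem_comap, hmem]
    constructor
    · intro h
      have h1 : pq M m = 1 := by
        refine hcen _ fun y => ?_
        obtain ⟨y, rfl⟩ := QuotientGroup.mk'_surjective (Subgroup.center M) y
        obtain ⟨z, hz, he⟩ := h (φ y) ⟨y, rfl⟩
        have h2 : z = m * y * m⁻¹ * y⁻¹ := hi (by simp only [he, map_mul, map_inv])
        have h3 : pq M (m * y * m⁻¹ * y⁻¹) = 1 := by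
          rw [← h2]
          exact (QuotientGroup.eq_one_iff _).2 hz
        rw [map_mul, map_mul, map_mul, map_inv, map_inv, mul_inv_eq_one,
          mul_inv_eq_iff_eq_mul] at h3
        exact h3
      exact (QuotientGroup.eq_one_iff m).1 h1
    · rintro hm _ ⟨y, rfl⟩
      have e : φ m * φ y * (φ m)⁻¹ * (φ y)⁻¹ = 1 := by
        rw [← map_mul, ← Subgroup.mem_center_iff.1 hm y, map_mul]
        group
      rw [e]
      exact (cc φ).one_mem
  have hcap : ∀ x ∈ R, x ∈ φ.range → x ∈ cc φ := by
    rintro _ hx ⟨m, rfl⟩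
    refine ⟨m, ?_, rfl⟩
    rw [← hcomap]
    exact hx
  refine ⟨R, hRn, ?_, hcomap, ?_⟩
  · haveI : Finite (φ.range.subgroupOf R) := by
      haveI : Finite (cc φ) := by
        haveI := hc
        refine Finite.of_surjective
          (fun z : Subgroup.center M => (⟨φ z, z, z.2, rfl⟩ : cc φ)) ?_
        rintro ⟨_, z, hz, rfl⟩
        exact ⟨⟨z, hz⟩, rfl⟩
      refine Finite.of_injective
        (fun x : φ.range.subgroupOf R => (⟨(x : R), hcap _ (x : R).2
          (Subgroup.mem_subgroupOf.1 x.2)⟩ : cc φ)) ?_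
      intro x y hxy
      exact Subtype.ext (Subtype.ext (congrArg (fun z : cc φ => (z : E)) hxy))
    haveI : Finite (R ⧸ φ.range.subgroupOf R) := Subgroup.finite_quotient_of_finiteIndex
    exact Finite.of_equiv _ (Subgroup.groupEquivQuotientProdSubgroup
      (s := φ.range.subgroupOf R)).symm
  · intro g hg
    rw [hmem]
    intro n hnn
    exact hcap _ (hg n hnn) (φ.range.mul_mem (hn.conj_mem n hnn g) (φ.range.inv_mem hnn))

theorem center_pq {M : Type} [Group M] [TopologicalSpace M] (h : FacS (PQ M)) (x : PQ M)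
    (hx : ∀ y : PQ M, x * y = y * x) : x = 1 := by
  by_contra h1
  refine h.cent x h1 ?_
  have e : (Subgroup.centralizer {x} : Subgroup (PQ M)) = ⊤ := by
    rw [eq_top_iff]
    intro y _
    rw [Subgroup.mem_centralizer_iff]
    rintro z rfl
    exact hx y
  rw [e]
  exact isOpen_univ

end rad

section ov2

variable {M E : Type} [Group M] [TopologicalSpace M] [Group E] [TopologicalSpace E]
  {φ : M →* E} {r : ℕ}

/-- **The radical of an overgroup.** -/
theorem exists_rad (h : Ov φ r) : ∃ R : Subgroup E, IsRad φ R :=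
  exists_rad' h.inj h.normal h.fin h.qf.fin (center_pq h.qf.fac)

end ov2

end Vale.Agent.P092.H333.V
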