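import Vale.Agent.P092.QT.H328.Psl

/-!
P092 (helper333), isogenies, block [V-NE2]: a nonzero smooth field for the restriction of the
source group to a normal subgroup of finite index gives a nonzero smooth field for the source group.
-/

set_option linter.all false

open scoped InnerProductSpace Topology ENNReal
open Filter ContinuousLinearMap MeasureTheory
open Vale.Agent.P092.QT.H156.Sm

namespace Vale.Agent.P092.H333.V

variable {Γ Λ Λ' G M H K : Type} [Group Γ] [Group Λ] [Group Λ'] [Group G] [Group M] [Group H]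
  [TopologicalSpace G] [TopologicalSpace M] [TopologicalSpace H]
  [IsTopologicalGroup G] [IsTopologicalGroup H]
  [MeasurableSpace G] [BorelSpace G] [SecondCountableTopology G]
  [NormedAddCommGroup K] [InnerProductSpace ℂ K] [CompleteSpace K]
  {ρ : Γ →* (K →L[ℂ] K)} {V : Λ →* (K →L[ℂ] K)} {ω : K} {ι : Γ →* G} {κ : Λ →* H}
  {μ : Measure G} {b : G → K →L[ℂ] K}

/-- Continuity along the source group, from its continuity along a subgroup. -/
theorem acont_sub {jj : Λ' →* Λ} {φ : M →* H} (hi : Function.Injective φ) (ho : IsOpenMap φ)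
    {κ' : Λ' →* M} (hk : ∀ v, φ (κ' v) = κ (jj v)) (hb : ACont κ' (V.comp jj) b) :
    ∀ ε > 0, ∃ U ∈ 𝓝 (1 : H), ∀ v ∈ jj.range, κ v ∈ U →
      ∀ x, ‖V v * b x * V v⁻¹ - b x‖ ≤ ε := by
  intro ε hε
  obtain ⟨U, hU, h⟩ := hb ε hε
  refine ⟨φ '' U, ?_, ?_⟩
  · have := ho.image_mem_nhds hU
    rwa [map_one] at this
  · rintro _ ⟨v, rfl⟩ ⟨u, hu, huv⟩ x
    have e : u = κ' v := hi (by rw [huv, hk])
    have h1 := h v (e ▸ hu) x
    simpa only [MonoidHom.comp_apply, map_inv] using h1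

/-- Passing from the closure of the image in the product with a finite group to the first factor. -/
theorem exists_smo_fin [Countable Γ] [μ.IsMulLeftInvariant] (hF : Frm ρ V ω)
    (N : Subgroup Λ) [N.Normal] [N.FiniteIndex]
    (hb : Fd ι ρ b) (hb2 : L2 ω μ b)
    (hN : ∀ ε > 0, ∃ U ∈ 𝓝 (1 : H), ∀ v ∈ N, κ v ∈ U →
      ∀ x, ‖V v * b x * V v⁻¹ - b x‖ ≤ ε) (h0 : b ≠ 0) :
    ∃ c, Smo ι κ ρ V ω μ c ∧ c ≠ 0 := by
  classical
  letI : TopologicalSpace (Λ ⧸ N) := ⊥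
  haveI : DiscreteTopology (Λ ⧸ N) := ⟨rfl⟩
  haveI : Finite (Λ ⧸ N) := inferInstance
  set k1 : Λ →* H × (Λ ⧸ N) := κ.prod (QuotientGroup.mk' N) with hk1
  set L : Subgroup (H × (Λ ⧸ N)) := k1.range.topologicalClosure with hL
  have hkL : ∀ v, k1 v ∈ L := fun v => Subgroup.le_topologicalClosure _ ⟨v, rfl⟩
  set kL : Λ →* L := k1.codRestrict L hkL with hkL'
  have hdL : DenseRange kL := by
    intro x
    rw [closure_subtype]
    have e : ((↑) : L → H × (Λ ⧸ N)) '' Set.range kL = Set.range k1 := by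
      rw [← Set.range_comp]
      rfl
    rw [e]
    exact x.2
  have sL : Smo ι kL ρ V ω μ b := by
    refine ⟨hb, fun ε hε => ?_, hb2⟩
    obtain ⟨U, hU, h⟩ := hN ε hε
    refine ⟨{x : L | (x : H × (Λ ⧸ N)).1 ∈ U ∧ (x : H × (Λ ⧸ N)).2 ∈ ({1} : Set (Λ ⧸ N))}, ?_, ?_⟩
    · have c1 : Continuous fun x : L => (x : H × (Λ ⧸ N)).1 := by fun_prop
      have c2 : Continuous fun x : L => (x : H × (Λ ⧸ N)).2 := by fun_prop
      have m1 : (fun x : L => (x : H × (Λ ⧸ N)).1) ⁻¹' U ∈ 𝓝 (1 : L) :=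
        c1.continuousAt.preimage_mem_nhds (by simpa using hU)
      have m2 : (fun x : L => (x : H × (Λ ⧸ N)).2) ⁻¹' {1} ∈ 𝓝 (1 : L) :=
        c2.continuousAt.preimage_mem_nhds ((isOpen_discrete _).mem_nhds (by simp))
      exact inter_mem m1 m2
    · rintro v ⟨h1, h2⟩ x
      have h3 : v ∈ N := (QuotientGroup.eq_one_iff v).1 h2
      exact h v h3 h1 x
  set p : L →* H := (MonoidHom.fst H (Λ ⧸ N)).comp L.subtype with hp
  set Z : Subgroup L := p.ker with hZ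
  haveI : Finite Z := by
    refine Finite.of_injective (fun z : Z => ((z : L) : H × (Λ ⧸ N)).2) ?_
    intro z w hzw
    have hz : ((z : L) : H × (Λ ⧸ N)).1 = 1 := z.2
    have hw : ((w : L) : H × (Λ ⧸ N)).1 = 1 := w.2
    refine Subtype.ext (Subtype.ext (Prod.ext ?_ hzw))
    rw [hz, hw]
  obtain ⟨c, sc, hc0⟩ := QT.H328.exists_smo_quot hF hdL Z sL h0
  refine ⟨c, ⟨sc.toFd, fun ε hε => ?_, sc.l2⟩, hc0⟩
  obtain ⟨W, hW, h⟩ := sc.acont ε hε
  obtain ⟨O, hOW, hO, h1O⟩ := mem_nhds_iff.1 hW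
  have hLc : IsClosed (L : Set (H × (Λ ⧸ N))) := Subgroup.isClosed_topologicalClosure _
  set O' : Set L := (QuotientGroup.mk' Z) ⁻¹' O with hO'
  have hO'o : IsOpen O' := hO.preimage QuotientGroup.continuous_mk
  have hC : IsClosed (((↑) : L → H × (Λ ⧸ N)) '' O'ᶜ) :=
    hLc.isClosedEmbedding_subtypeVal.isClosedMap _ hO'o.isClosed_compl
  have hC' : IsClosed (Prod.fst '' (((↑) : L → H × (Λ ⧸ N)) '' O'ᶜ)) :=
    isClosedMap_fst_of_compactSpace _ hC
  refine ⟨(Prod.fst '' (((↑) : L → H × (Λ ⧸ N)) '' O'ᶜ))ᶜ, hC'.isOpen_compl.mem_nhds ?_, ?_⟩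
  · rintro ⟨_, ⟨y, hy, rfl⟩, hy1⟩
    apply hy
    have h2 : y ∈ Z := hy1
    have h3 : QuotientGroup.mk' Z y = 1 := (QuotientGroup.eq_one_iff y).2 h2
    change QuotientGroup.mk' Z y ∈ O
    rw [h3]
    exact h1O
  · intro v hv x
    refine h v ?_ x
    by_contra h4
    apply hv
    refine ⟨k1 v, ⟨kL v, fun h5 => h4 (hOW h5), rfl⟩, rfl⟩

/-- **[V-NE2]** -/
theorem smo_over [Countable Γ] [μ.IsMulLeftInvariant] (hd : DenseRange κ)
    (jj : Λ' →* Λ) [jj.range.Normal] [jj.range.FiniteIndex] {φ : M →* H}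
    (hi : Function.Injective φ) (ho : IsOpenMap φ) {κ' : Λ' →* M}
    (hk : ∀ v, φ (κ' v) = κ (jj v)) (hF : Frm ρ V ω)
    (hb : Smo ι κ' ρ (V.comp jj) ω μ b) (h0 : b ≠ 0) (R : Subgroup H) [R.Normal] [Finite R] :
    ∃ c, Smo ι ((QuotientGroup.mk' R).comp κ) ρ V ω μ c ∧ c ≠ 0 := by
  obtain ⟨c, sc, hc⟩ := exists_smo_fin hF jj.range hb.toFd hb.l2
    (acont_sub hi ho hk hb.acont) h0
  exact QT.H328.exists_smo_quot hF hd R sc hc

end Vale.Agent.P092.H333.V
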